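import Vale.Agent.P154.K4a

set_option linter.defProp false

namespace Vale.Agent.P154

def G4b_ok_0 : (((leaves tG4b R4 R4 []).drop 0).take 1).all (leafOK s4 s4 G4b []) = true := by decide +kernel
def G4b_ok_1 : (((leaves tG4b R4 R4 []).drop 1).take 1).all (leafOK s4 s4 G4b []) = true := by decide +kernel
def G4b_ok_2 : (((leaves tG4b R4 R4 []).drop 2).take 1).all (leafOK s4 s4 G4b []) = true := by decide +kernel
def G4b_ok_3 : (((leaves tG4b R4 R4 []).drop 3).take 1).all (leafOK s4 s4 G4b []) = true := by decide +kernel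
def G4b_ok_4 : (((leaves tG4b R4 R4 []).drop 4).take 1).all (leafOK s4 s4 G4b []) = true := by decide +kernel
def G4b_ok_5 : (((leaves tG4b R4 R4 []).drop 5).take 1).all (leafOK s4 s4 G4b []) = true := by decide +kernel
def G4b_ok_6 : (((leaves tG4b R4 R4 []).drop 6).take 1).all (leafOK s4 s4 G4b []) = true := by decide +kernel
def G4b_ok_7 : (((leaves tG4b R4 R4 []).drop 7).take 1).all (leafOK s4 s4 G4b []) = true := by decide +kernel
def G4b_ok_8 : (((leaves tG4b R4 R4 []).drop 8).take 1).all (leafOK s4 s4 G4b []) = true := by decide +kernel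
def G4b_ok_9 : (((leaves tG4b R4 R4 []).drop 9).take 1).all (leafOK s4 s4 G4b []) = true := by decide +kernel
def G4b_ok_10 : (((leaves tG4b R4 R4 []).drop 10).take 1).all (leafOK s4 s4 G4b []) = true := by decide +kernel
def G4b_ok_11 : (((leaves tG4b R4 R4 []).drop 11).take 1).all (leafOK s4 s4 G4b []) = true := by decide +kernel
def G4b_ok_12 : (((leaves tG4b R4 R4 []).drop 12).take 1).all (leafOK s4 s4 G4b []) = true := by decide +kernel
def G4b_ok_13 : (((leaves tG4b R4 R4 []).drop 13).take 1).all (leafOK s4 s4 G4b []) = true := by decide +kernel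
def G4b_ok_14 : (((leaves tG4b R4 R4 []).drop 14).take 1).all (leafOK s4 s4 G4b []) = true := by decide +kernel
def G4b_ok_15 : (((leaves tG4b R4 R4 []).drop 15).take 1).all (leafOK s4 s4 G4b []) = true := by decide +kernel
def G4b_ok_16 : (((leaves tG4b R4 R4 []).drop 16).take 1).all (leafOK s4 s4 G4b []) = true := by decide +kernel
def G4b_ok_17 : (((leaves tG4b R4 R4 []).drop 17).take 1).all (leafOK s4 s4 G4b []) = true := by decide +kernel
def G4b_ok_18 : (((leaves tG4b R4 R4 []).drop 18).take 1).all (leafOK s4 s4 G4b []) = true := by decide +kernel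
def G4b_ok_19 : (((leaves tG4b R4 R4 []).drop 19).take 1).all (leafOK s4 s4 G4b []) = true := by decide +kernel
def G4b_ok_20 : (((leaves tG4b R4 R4 []).drop 20).take 1).all (leafOK s4 s4 G4b []) = true := by decide +kernel
def G4b_ok_21 : (((leaves tG4b R4 R4 []).drop 21).take 1).all (leafOK s4 s4 G4b []) = true := by decide +kernel
def G4b_ok_22 : (((leaves tG4b R4 R4 []).drop 22).take 1).all (leafOK s4 s4 G4b []) = true := by decide +kernel
def G4b_ok_23 : (((leaves tG4b R4 R4 []).drop 23).take 1).all (leafOK s4 s4 G4b []) = true := by decide +kernel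
def G4b_ok_24 : (((leaves tG4b R4 R4 []).drop 24).take 1).all (leafOK s4 s4 G4b []) = true := by decide +kernel
def G4b_ok_25 : (((leaves tG4b R4 R4 []).drop 25).take 1).all (leafOK s4 s4 G4b []) = true := by decide +kernel
def G4b_ok_26 : (((leaves tG4b R4 R4 []).drop 26).take 1).all (leafOK s4 s4 G4b []) = true := by decide +kernel
def G4b_ok_27 : (((leaves tG4b R4 R4 []).drop 27).take 1).all (leafOK s4 s4 G4b []) = true := by decide +kernel
def G4b_ok_28 : (((leaves tG4b R4 R4 []).drop 28).take 1).all (leafOK s4 s4 G4b []) = true := by decide +kernel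
def G4b_ok_29 : (((leaves tG4b R4 R4 []).drop 29).take 1).all (leafOK s4 s4 G4b []) = true := by decide +kernel
def G4b_ok_30 : (((leaves tG4b R4 R4 []).drop 30).take 1).all (leafOK s4 s4 G4b []) = true := by decide +kernel
def G4b_ok_31 : (((leaves tG4b R4 R4 []).drop 31).take 1).all (leafOK s4 s4 G4b []) = true := by decide +kernel
def G4b_ok_32 : (((leaves tG4b R4 R4 []).drop 32).take 1).all (leafOK s4 s4 G4b []) = true := by decide +kernel
def G4b_ok_33 : (((leaves tG4b R4 R4 []).drop 33).take 1).all (leafOK s4 s4 G4b []) = true := by decide +kernel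
def G4b_ok_34 : (((leaves tG4b R4 R4 []).drop 34).take 1).all (leafOK s4 s4 G4b []) = true := by decide +kernel
def G4b_ok_35 : (((leaves tG4b R4 R4 []).drop 35).take 1).all (leafOK s4 s4 G4b []) = true := by decide +kernel
def G4b_ok_36 : (((leaves tG4b R4 R4 []).drop 36).take 1).all (leafOK s4 s4 G4b []) = true := by decide +kernel

end Vale.Agent.P154
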