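import Vale.Agent.P154.K4b

set_option linter.defProp false

namespace Vale.Agent.P154

def G4b_ok_37 : (((leaves tG4b R4 R4 []).drop 37).take 1).all (leafOK s4 s4 G4b []) = true := by decide +kernel
def G4b_ok_38 : (((leaves tG4b R4 R4 []).drop 38).take 1).all (leafOK s4 s4 G4b []) = true := by decide +kernel
def G4b_ok_39 : (((leaves tG4b R4 R4 []).drop 39).take 1).all (leafOK s4 s4 G4b []) = true := by decide +kernel
def G4b_ok_40 : (((leaves tG4b R4 R4 []).drop 40).take 1).all (leafOK s4 s4 G4b []) = true := by decide +kernel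
def G4b_ok_41 : (((leaves tG4b R4 R4 []).drop 41).take 1).all (leafOK s4 s4 G4b []) = true := by decide +kernel
def G4b_ok_42 : (((leaves tG4b R4 R4 []).drop 42).take 1).all (leafOK s4 s4 G4b []) = true := by decide +kernel
def G4b_ok_43 : (((leaves tG4b R4 R4 []).drop 43).take 1).all (leafOK s4 s4 G4b []) = true := by decide +kernel
def G4b_ok_44 : (((leaves tG4b R4 R4 []).drop 44).take 1).all (leafOK s4 s4 G4b []) = true := by decide +kernel
def G4b_ok_45 : (((leaves tG4b R4 R4 []).drop 45).take 1).all (leafOK s4 s4 G4b []) = true := by decide +kernel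
def G4b_ok_46 : (((leaves tG4b R4 R4 []).drop 46).take 1).all (leafOK s4 s4 G4b []) = true := by decide +kernel
def G4b_ok_47 : (((leaves tG4b R4 R4 []).drop 47).take 1).all (leafOK s4 s4 G4b []) = true := by decide +kernel
def G4b_ok_48 : (((leaves tG4b R4 R4 []).drop 48).take 1).all (leafOK s4 s4 G4b []) = true := by decide +kernel
def G4b_ok_49 : (((leaves tG4b R4 R4 []).drop 49).take 1).all (leafOK s4 s4 G4b []) = true := by decide +kernel
def G4b_ok_50 : (((leaves tG4b R4 R4 []).drop 50).take 1).all (leafOK s4 s4 G4b []) = true := by decide +kernel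
def G4b_ok_51 : (((leaves tG4b R4 R4 []).drop 51).take 1).all (leafOK s4 s4 G4b []) = true := by decide +kernel
def G4b_ok_52 : (((leaves tG4b R4 R4 []).drop 52).take 1).all (leafOK s4 s4 G4b []) = true := by decide +kernel
def G4b_ok_53 : (((leaves tG4b R4 R4 []).drop 53).take 1).all (leafOK s4 s4 G4b []) = true := by decide +kernel
def G4b_ok_54 : (((leaves tG4b R4 R4 []).drop 54).take 1).all (leafOK s4 s4 G4b []) = true := by decide +kernel
def G4b_ok_55 : (((leaves tG4b R4 R4 []).drop 55).take 1).all (leafOK s4 s4 G4b []) = true := by decide +kernel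
def G4b_ok_56 : (((leaves tG4b R4 R4 []).drop 56).take 1).all (leafOK s4 s4 G4b []) = true := by decide +kernel
def G4b_ok_57 : (((leaves tG4b R4 R4 []).drop 57).take 1).all (leafOK s4 s4 G4b []) = true := by decide +kernel
def G4b_ok_58 : (((leaves tG4b R4 R4 []).drop 58).take 1).all (leafOK s4 s4 G4b []) = true := by decide +kernel
def G4b_ok_59 : (((leaves tG4b R4 R4 []).drop 59).take 1).all (leafOK s4 s4 G4b []) = true := by decide +kernel
def G4b_ok_60 : (((leaves tG4b R4 R4 []).drop 60).take 1).all (leafOK s4 s4 G4b []) = true := by decide +kernel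
def G4b_ok_61 : (((leaves tG4b R4 R4 []).drop 61).take 1).all (leafOK s4 s4 G4b []) = true := by decide +kernel
def G4b_ok_62 : (((leaves tG4b R4 R4 []).drop 62).take 1).all (leafOK s4 s4 G4b []) = true := by decide +kernel
def G4b_ok_63 : (((leaves tG4b R4 R4 []).drop 63).take 1).all (leafOK s4 s4 G4b []) = true := by decide +kernel
def G4b_ok_64 : (((leaves tG4b R4 R4 []).drop 64).take 1).all (leafOK s4 s4 G4b []) = true := by decide +kernel
def G4b_ok_65 : (((leaves tG4b R4 R4 []).drop 65).take 1).all (leafOK s4 s4 G4b []) = true := by decide +kernel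
def G4b_ok_66 : (((leaves tG4b R4 R4 []).drop 66).take 1).all (leafOK s4 s4 G4b []) = true := by decide +kernel
def G4b_ok_67 : (((leaves tG4b R4 R4 []).drop 67).take 1).all (leafOK s4 s4 G4b []) = true := by decide +kernel
def G4b_ok_68 : (((leaves tG4b R4 R4 []).drop 68).take 1).all (leafOK s4 s4 G4b []) = true := by decide +kernel
def G4b_ok_69 : (((leaves tG4b R4 R4 []).drop 69).take 1).all (leafOK s4 s4 G4b []) = true := by decide +kernel
def G4b_ok_70 : (((leaves tG4b R4 R4 []).drop 70).take 1).all (leafOK s4 s4 G4b []) = true := by decide +kernel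
def G4b_ok_71 : (((leaves tG4b R4 R4 []).drop 71).take 1).all (leafOK s4 s4 G4b []) = true := by decide +kernel
def G4b_ok_72 : (((leaves tG4b R4 R4 []).drop 72).take 1).all (leafOK s4 s4 G4b []) = true := by decide +kernel
def G4b_ok_73 : (((leaves tG4b R4 R4 []).drop 73).take 1).all (leafOK s4 s4 G4b []) = true := by decide +kernel

end Vale.Agent.P154
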