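import Vale.Agent.P154.K4c

set_option linter.defProp false

namespace Vale.Agent.P154

def G4b_ok_74 : (((leaves tG4b R4 R4 []).drop 74).take 1).all (leafOK s4 s4 G4b []) = true := by decide +kernel
def G4b_ok_75 : (((leaves tG4b R4 R4 []).drop 75).take 1).all (leafOK s4 s4 G4b []) = true := by decide +kernel
def G4b_ok_76 : (((leaves tG4b R4 R4 []).drop 76).take 1).all (leafOK s4 s4 G4b []) = true := by decide +kernel
def G4b_ok_77 : (((leaves tG4b R4 R4 []).drop 77).take 1).all (leafOK s4 s4 G4b []) = true := by decide +kernel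
def G4b_ok_78 : (((leaves tG4b R4 R4 []).drop 78).take 1).all (leafOK s4 s4 G4b []) = true := by decide +kernel
def G4b_ok_79 : (((leaves tG4b R4 R4 []).drop 79).take 1).all (leafOK s4 s4 G4b []) = true := by decide +kernel
def G4b_ok_80 : (((leaves tG4b R4 R4 []).drop 80).take 1).all (leafOK s4 s4 G4b []) = true := by decide +kernel
def G4b_ok_81 : (((leaves tG4b R4 R4 []).drop 81).take 1).all (leafOK s4 s4 G4b []) = true := by decide +kernel
def G4b_ok_82 : (((leaves tG4b R4 R4 []).drop 82).take 1).all (leafOK s4 s4 G4b []) = true := by decide +kernel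
def G4b_ok_83 : (((leaves tG4b R4 R4 []).drop 83).take 1).all (leafOK s4 s4 G4b []) = true := by decide +kernel
def G4b_ok_84 : (((leaves tG4b R4 R4 []).drop 84).take 1).all (leafOK s4 s4 G4b []) = true := by decide +kernel
def G4b_ok_85 : (((leaves tG4b R4 R4 []).drop 85).take 1).all (leafOK s4 s4 G4b []) = true := by decide +kernel
def G4b_ok_86 : (((leaves tG4b R4 R4 []).drop 86).take 1).all (leafOK s4 s4 G4b []) = true := by decide +kernel
def G4b_ok_87 : (((leaves tG4b R4 R4 []).drop 87).take 1).all (leafOK s4 s4 G4b []) = true := by decide +kernel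
def G4b_ok_88 : (((leaves tG4b R4 R4 []).drop 88).take 1).all (leafOK s4 s4 G4b []) = true := by decide +kernel
def G4b_ok_89 : (((leaves tG4b R4 R4 []).drop 89).take 1).all (leafOK s4 s4 G4b []) = true := by decide +kernel
def G4b_ok_90 : (((leaves tG4b R4 R4 []).drop 90).take 1).all (leafOK s4 s4 G4b []) = true := by decide +kernel
def G4b_ok_91 : (((leaves tG4b R4 R4 []).drop 91).take 1).all (leafOK s4 s4 G4b []) = true := by decide +kernel
def G4b_ok_92 : (((leaves tG4b R4 R4 []).drop 92).take 1).all (leafOK s4 s4 G4b []) = true := by decide +kernel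
def G4b_ok_93 : (((leaves tG4b R4 R4 []).drop 93).take 1).all (leafOK s4 s4 G4b []) = true := by decide +kernel
def G4b_ok_94 : (((leaves tG4b R4 R4 []).drop 94).take 1).all (leafOK s4 s4 G4b []) = true := by decide +kernel
def G4b_ok_95 : (((leaves tG4b R4 R4 []).drop 95).take 1).all (leafOK s4 s4 G4b []) = true := by decide +kernel
def G4b_ok_96 : (((leaves tG4b R4 R4 []).drop 96).take 1).all (leafOK s4 s4 G4b []) = true := by decide +kernel
def G4b_ok_97 : (((leaves tG4b R4 R4 []).drop 97).take 1).all (leafOK s4 s4 G4b []) = true := by decide +kernel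
def G4b_ok_98 : (((leaves tG4b R4 R4 []).drop 98).take 1).all (leafOK s4 s4 G4b []) = true := by decide +kernel
def G4b_ok_99 : (((leaves tG4b R4 R4 []).drop 99).take 1).all (leafOK s4 s4 G4b []) = true := by decide +kernel
def G4b_ok_100 : (((leaves tG4b R4 R4 []).drop 100).take 1).all (leafOK s4 s4 G4b []) = true := by decide +kernel
def G4b_ok_101 : (((leaves tG4b R4 R4 []).drop 101).take 1).all (leafOK s4 s4 G4b []) = true := by decide +kernel
def G4b_ok_102 : (((leaves tG4b R4 R4 []).drop 102).take 1).all (leafOK s4 s4 G4b []) = true := by decide +kernel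
def G4b_ok_103 : (((leaves tG4b R4 R4 []).drop 103).take 1).all (leafOK s4 s4 G4b []) = true := by decide +kernel
def G4b_ok_104 : (((leaves tG4b R4 R4 []).drop 104).take 1).all (leafOK s4 s4 G4b []) = true := by decide +kernel
def G4b_ok_105 : (((leaves tG4b R4 R4 []).drop 105).take 1).all (leafOK s4 s4 G4b []) = true := by decide +kernel
def G4b_ok_106 : (((leaves tG4b R4 R4 []).drop 106).take 1).all (leafOK s4 s4 G4b []) = true := by decide +kernel
def G4b_ok_107 : (((leaves tG4b R4 R4 []).drop 107).take 1).all (leafOK s4 s4 G4b []) = true := by decide +kernel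
def G4b_ok_108 : ((leaves tG4b R4 R4 []).drop 108).all (leafOK s4 s4 G4b []) = true := by decide +kernel

end Vale.Agent.P154
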