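import Vale.Agent.P154.K4d

set_option linter.defProp false

namespace Vale.Agent.P154

def H4b_ok_0 : (((leaves tH4b (rZ 4) R4 []).drop 0).take 3).all (leafOK (sZ 12) s4 H4b (mkCon 4 cc4b 0 1)) = true := by decide +kernel
def H4b_ok_1 : (((leaves tH4b (rZ 4) R4 []).drop 3).take 3).all (leafOK (sZ 12) s4 H4b (mkCon 4 cc4b 0 1)) = true := by decide +kernel
def H4b_ok_2 : (((leaves tH4b (rZ 4) R4 []).drop 6).take 3).all (leafOK (sZ 12) s4 H4b (mkCon 4 cc4b 0 1)) = true := by decide +kernel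
def H4b_ok_3 : (((leaves tH4b (rZ 4) R4 []).drop 9).take 3).all (leafOK (sZ 12) s4 H4b (mkCon 4 cc4b 0 1)) = true := by decide +kernel
def H4b_ok_4 : (((leaves tH4b (rZ 4) R4 []).drop 12).take 3).all (leafOK (sZ 12) s4 H4b (mkCon 4 cc4b 0 1)) = true := by decide +kernel
def H4b_ok_5 : (((leaves tH4b (rZ 4) R4 []).drop 15).take 3).all (leafOK (sZ 12) s4 H4b (mkCon 4 cc4b 0 1)) = true := by decide +kernel
def H4b_ok_6 : (((leaves tH4b (rZ 4) R4 []).drop 18).take 3).all (leafOK (sZ 12) s4 H4b (mkCon 4 cc4b 0 1)) = true := by decide +kernel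
def H4b_ok_7 : (((leaves tH4b (rZ 4) R4 []).drop 21).take 3).all (leafOK (sZ 12) s4 H4b (mkCon 4 cc4b 0 1)) = true := by decide +kernel
def H4b_ok_8 : (((leaves tH4b (rZ 4) R4 []).drop 24).take 3).all (leafOK (sZ 12) s4 H4b (mkCon 4 cc4b 0 1)) = true := by decide +kernel
def H4b_ok_9 : (((leaves tH4b (rZ 4) R4 []).drop 27).take 3).all (leafOK (sZ 12) s4 H4b (mkCon 4 cc4b 0 1)) = true := by decide +kernel
def H4b_ok_10 : (((leaves tH4b (rZ 4) R4 []).drop 30).take 3).all (leafOK (sZ 12) s4 H4b (mkCon 4 cc4b 0 1)) = true := by decide +kernel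
def H4b_ok_11 : (((leaves tH4b (rZ 4) R4 []).drop 33).take 3).all (leafOK (sZ 12) s4 H4b (mkCon 4 cc4b 0 1)) = true := by decide +kernel
def H4b_ok_12 : (((leaves tH4b (rZ 4) R4 []).drop 36).take 3).all (leafOK (sZ 12) s4 H4b (mkCon 4 cc4b 0 1)) = true := by decide +kernel
def H4b_ok_13 : (((leaves tH4b (rZ 4) R4 []).drop 39).take 3).all (leafOK (sZ 12) s4 H4b (mkCon 4 cc4b 0 1)) = true := by decide +kernel
def H4b_ok_14 : (((leaves tH4b (rZ 4) R4 []).drop 42).take 3).all (leafOK (sZ 12) s4 H4b (mkCon 4 cc4b 0 1)) = true := by decide +kernel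
def H4b_ok_15 : (((leaves tH4b (rZ 4) R4 []).drop 45).take 3).all (leafOK (sZ 12) s4 H4b (mkCon 4 cc4b 0 1)) = true := by decide +kernel
def H4b_ok_16 : (((leaves tH4b (rZ 4) R4 []).drop 48).take 3).all (leafOK (sZ 12) s4 H4b (mkCon 4 cc4b 0 1)) = true := by decide +kernel
def H4b_ok_17 : (((leaves tH4b (rZ 4) R4 []).drop 51).take 3).all (leafOK (sZ 12) s4 H4b (mkCon 4 cc4b 0 1)) = true := by decide +kernel
def H4b_ok_18 : (((leaves tH4b (rZ 4) R4 []).drop 54).take 3).all (leafOK (sZ 12) s4 H4b (mkCon 4 cc4b 0 1)) = true := by decide +kernel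
def H4b_ok_19 : (((leaves tH4b (rZ 4) R4 []).drop 57).take 3).all (leafOK (sZ 12) s4 H4b (mkCon 4 cc4b 0 1)) = true := by decide +kernel
def H4b_ok_20 : (((leaves tH4b (rZ 4) R4 []).drop 60).take 3).all (leafOK (sZ 12) s4 H4b (mkCon 4 cc4b 0 1)) = true := by decide +kernel
def H4b_ok_21 : (((leaves tH4b (rZ 4) R4 []).drop 63).take 3).all (leafOK (sZ 12) s4 H4b (mkCon 4 cc4b 0 1)) = true := by decide +kernel
def H4b_ok_22 : (((leaves tH4b (rZ 4) R4 []).drop 66).take 3).all (leafOK (sZ 12) s4 H4b (mkCon 4 cc4b 0 1)) = true := by decide +kernel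
def H4b_ok_23 : (((leaves tH4b (rZ 4) R4 []).drop 69).take 3).all (leafOK (sZ 12) s4 H4b (mkCon 4 cc4b 0 1)) = true := by decide +kernel
def H4b_ok_24 : (((leaves tH4b (rZ 4) R4 []).drop 72).take 3).all (leafOK (sZ 12) s4 H4b (mkCon 4 cc4b 0 1)) = true := by decide +kernel
def H4b_ok_25 : (((leaves tH4b (rZ 4) R4 []).drop 75).take 3).all (leafOK (sZ 12) s4 H4b (mkCon 4 cc4b 0 1)) = true := by decide +kernel
def H4b_ok_26 : (((leaves tH4b (rZ 4) R4 []).drop 78).take 3).all (leafOK (sZ 12) s4 H4b (mkCon 4 cc4b 0 1)) = true := by decide +kernel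
def H4b_ok_27 : (((leaves tH4b (rZ 4) R4 []).drop 81).take 3).all (leafOK (sZ 12) s4 H4b (mkCon 4 cc4b 0 1)) = true := by decide +kernel
def H4b_ok_28 : (((leaves tH4b (rZ 4) R4 []).drop 84).take 3).all (leafOK (sZ 12) s4 H4b (mkCon 4 cc4b 0 1)) = true := by decide +kernel
def H4b_ok_29 : (((leaves tH4b (rZ 4) R4 []).drop 87).take 3).all (leafOK (sZ 12) s4 H4b (mkCon 4 cc4b 0 1)) = true := by decide +kernel
def H4b_ok_30 : (((leaves tH4b (rZ 4) R4 []).drop 90).take 3).all (leafOK (sZ 12) s4 H4b (mkCon 4 cc4b 0 1)) = true := by decide +kernel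
def H4b_ok_31 : (((leaves tH4b (rZ 4) R4 []).drop 93).take 3).all (leafOK (sZ 12) s4 H4b (mkCon 4 cc4b 0 1)) = true := by decide +kernel
def H4b_ok_32 : (((leaves tH4b (rZ 4) R4 []).drop 96).take 3).all (leafOK (sZ 12) s4 H4b (mkCon 4 cc4b 0 1)) = true := by decide +kernel
def H4b_ok_33 : (((leaves tH4b (rZ 4) R4 []).drop 99).take 3).all (leafOK (sZ 12) s4 H4b (mkCon 4 cc4b 0 1)) = true := by decide +kernel
def H4b_ok_34 : (((leaves tH4b (rZ 4) R4 []).drop 102).take 3).all (leafOK (sZ 12) s4 H4b (mkCon 4 cc4b 0 1)) = true := by decide +kernel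
def H4b_ok_35 : (((leaves tH4b (rZ 4) R4 []).drop 105).take 3).all (leafOK (sZ 12) s4 H4b (mkCon 4 cc4b 0 1)) = true := by decide +kernel
def H4b_ok_36 : (((leaves tH4b (rZ 4) R4 []).drop 108).take 3).all (leafOK (sZ 12) s4 H4b (mkCon 4 cc4b 0 1)) = true := by decide +kernel
def H4b_ok_37 : (((leaves tH4b (rZ 4) R4 []).drop 111).take 3).all (leafOK (sZ 12) s4 H4b (mkCon 4 cc4b 0 1)) = true := by decide +kernel
def H4b_ok_38 : (((leaves tH4b (rZ 4) R4 []).drop 114).take 3).all (leafOK (sZ 12) s4 H4b (mkCon 4 cc4b 0 1)) = true := by decide +kernel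
def H4b_ok_39 : (((leaves tH4b (rZ 4) R4 []).drop 117).take 3).all (leafOK (sZ 12) s4 H4b (mkCon 4 cc4b 0 1)) = true := by decide +kernel
def H4b_ok_40 : (((leaves tH4b (rZ 4) R4 []).drop 120).take 3).all (leafOK (sZ 12) s4 H4b (mkCon 4 cc4b 0 1)) = true := by decide +kernel
def H4b_ok_41 : (((leaves tH4b (rZ 4) R4 []).drop 123).take 3).all (leafOK (sZ 12) s4 H4b (mkCon 4 cc4b 0 1)) = true := by decide +kernel
def H4b_ok_42 : (((leaves tH4b (rZ 4) R4 []).drop 126).take 3).all (leafOK (sZ 12) s4 H4b (mkCon 4 cc4b 0 1)) = true := by decide +kernel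
def H4b_ok_43 : (((leaves tH4b (rZ 4) R4 []).drop 129).take 3).all (leafOK (sZ 12) s4 H4b (mkCon 4 cc4b 0 1)) = true := by decide +kernel
def H4b_ok_44 : (((leaves tH4b (rZ 4) R4 []).drop 132).take 3).all (leafOK (sZ 12) s4 H4b (mkCon 4 cc4b 0 1)) = true := by decide +kernel
def H4b_ok_45 : (((leaves tH4b (rZ 4) R4 []).drop 135).take 3).all (leafOK (sZ 12) s4 H4b (mkCon 4 cc4b 0 1)) = true := by decide +kernel
def H4b_ok_46 : (((leaves tH4b (rZ 4) R4 []).drop 138).take 3).all (leafOK (sZ 12) s4 H4b (mkCon 4 cc4b 0 1)) = true := by decide +kernel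
def H4b_ok_47 : (((leaves tH4b (rZ 4) R4 []).drop 141).take 3).all (leafOK (sZ 12) s4 H4b (mkCon 4 cc4b 0 1)) = true := by decide +kernel
def H4b_ok_48 : (((leaves tH4b (rZ 4) R4 []).drop 144).take 3).all (leafOK (sZ 12) s4 H4b (mkCon 4 cc4b 0 1)) = true := by decide +kernel
def H4b_ok_49 : (((leaves tH4b (rZ 4) R4 []).drop 147).take 3).all (leafOK (sZ 12) s4 H4b (mkCon 4 cc4b 0 1)) = true := by decide +kernel
def H4b_ok_50 : (((leaves tH4b (rZ 4) R4 []).drop 150).take 3).all (leafOK (sZ 12) s4 H4b (mkCon 4 cc4b 0 1)) = true := by decide +kernel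

end Vale.Agent.P154
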