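import Vale.Agent.P154.K4e

set_option linter.defProp false

namespace Vale.Agent.P154

def H4b_ok_51 : (((leaves tH4b (rZ 4) R4 []).drop 153).take 3).all (leafOK (sZ 12) s4 H4b (mkCon 4 cc4b 0 1)) = true := by decide +kernel
def H4b_ok_52 : (((leaves tH4b (rZ 4) R4 []).drop 156).take 3).all (leafOK (sZ 12) s4 H4b (mkCon 4 cc4b 0 1)) = true := by decide +kernel
def H4b_ok_53 : (((leaves tH4b (rZ 4) R4 []).drop 159).take 3).all (leafOK (sZ 12) s4 H4b (mkCon 4 cc4b 0 1)) = true := by decide +kernel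
def H4b_ok_54 : (((leaves tH4b (rZ 4) R4 []).drop 162).take 3).all (leafOK (sZ 12) s4 H4b (mkCon 4 cc4b 0 1)) = true := by decide +kernel
def H4b_ok_55 : (((leaves tH4b (rZ 4) R4 []).drop 165).take 3).all (leafOK (sZ 12) s4 H4b (mkCon 4 cc4b 0 1)) = true := by decide +kernel
def H4b_ok_56 : (((leaves tH4b (rZ 4) R4 []).drop 168).take 3).all (leafOK (sZ 12) s4 H4b (mkCon 4 cc4b 0 1)) = true := by decide +kernel
def H4b_ok_57 : (((leaves tH4b (rZ 4) R4 []).drop 171).take 3).all (leafOK (sZ 12) s4 H4b (mkCon 4 cc4b 0 1)) = true := by decide +kernel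
def H4b_ok_58 : (((leaves tH4b (rZ 4) R4 []).drop 174).take 3).all (leafOK (sZ 12) s4 H4b (mkCon 4 cc4b 0 1)) = true := by decide +kernel
def H4b_ok_59 : (((leaves tH4b (rZ 4) R4 []).drop 177).take 3).all (leafOK (sZ 12) s4 H4b (mkCon 4 cc4b 0 1)) = true := by decide +kernel
def H4b_ok_60 : (((leaves tH4b (rZ 4) R4 []).drop 180).take 3).all (leafOK (sZ 12) s4 H4b (mkCon 4 cc4b 0 1)) = true := by decide +kernel
def H4b_ok_61 : (((leaves tH4b (rZ 4) R4 []).drop 183).take 3).all (leafOK (sZ 12) s4 H4b (mkCon 4 cc4b 0 1)) = true := by decide +kernel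
def H4b_ok_62 : (((leaves tH4b (rZ 4) R4 []).drop 186).take 3).all (leafOK (sZ 12) s4 H4b (mkCon 4 cc4b 0 1)) = true := by decide +kernel
def H4b_ok_63 : (((leaves tH4b (rZ 4) R4 []).drop 189).take 3).all (leafOK (sZ 12) s4 H4b (mkCon 4 cc4b 0 1)) = true := by decide +kernel
def H4b_ok_64 : (((leaves tH4b (rZ 4) R4 []).drop 192).take 3).all (leafOK (sZ 12) s4 H4b (mkCon 4 cc4b 0 1)) = true := by decide +kernel
def H4b_ok_65 : (((leaves tH4b (rZ 4) R4 []).drop 195).take 3).all (leafOK (sZ 12) s4 H4b (mkCon 4 cc4b 0 1)) = true := by decide +kernel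
def H4b_ok_66 : (((leaves tH4b (rZ 4) R4 []).drop 198).take 3).all (leafOK (sZ 12) s4 H4b (mkCon 4 cc4b 0 1)) = true := by decide +kernel
def H4b_ok_67 : (((leaves tH4b (rZ 4) R4 []).drop 201).take 3).all (leafOK (sZ 12) s4 H4b (mkCon 4 cc4b 0 1)) = true := by decide +kernel
def H4b_ok_68 : (((leaves tH4b (rZ 4) R4 []).drop 204).take 3).all (leafOK (sZ 12) s4 H4b (mkCon 4 cc4b 0 1)) = true := by decide +kernel
def H4b_ok_69 : (((leaves tH4b (rZ 4) R4 []).drop 207).take 3).all (leafOK (sZ 12) s4 H4b (mkCon 4 cc4b 0 1)) = true := by decide +kernel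
def H4b_ok_70 : (((leaves tH4b (rZ 4) R4 []).drop 210).take 3).all (leafOK (sZ 12) s4 H4b (mkCon 4 cc4b 0 1)) = true := by decide +kernel
def H4b_ok_71 : (((leaves tH4b (rZ 4) R4 []).drop 213).take 3).all (leafOK (sZ 12) s4 H4b (mkCon 4 cc4b 0 1)) = true := by decide +kernel
def H4b_ok_72 : (((leaves tH4b (rZ 4) R4 []).drop 216).take 3).all (leafOK (sZ 12) s4 H4b (mkCon 4 cc4b 0 1)) = true := by decide +kernel
def H4b_ok_73 : (((leaves tH4b (rZ 4) R4 []).drop 219).take 3).all (leafOK (sZ 12) s4 H4b (mkCon 4 cc4b 0 1)) = true := by decide +kernel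
def H4b_ok_74 : (((leaves tH4b (rZ 4) R4 []).drop 222).take 3).all (leafOK (sZ 12) s4 H4b (mkCon 4 cc4b 0 1)) = true := by decide +kernel
def H4b_ok_75 : (((leaves tH4b (rZ 4) R4 []).drop 225).take 3).all (leafOK (sZ 12) s4 H4b (mkCon 4 cc4b 0 1)) = true := by decide +kernel
def H4b_ok_76 : (((leaves tH4b (rZ 4) R4 []).drop 228).take 3).all (leafOK (sZ 12) s4 H4b (mkCon 4 cc4b 0 1)) = true := by decide +kernel
def H4b_ok_77 : (((leaves tH4b (rZ 4) R4 []).drop 231).take 3).all (leafOK (sZ 12) s4 H4b (mkCon 4 cc4b 0 1)) = true := by decide +kernel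
def H4b_ok_78 : (((leaves tH4b (rZ 4) R4 []).drop 234).take 3).all (leafOK (sZ 12) s4 H4b (mkCon 4 cc4b 0 1)) = true := by decide +kernel
def H4b_ok_79 : (((leaves tH4b (rZ 4) R4 []).drop 237).take 3).all (leafOK (sZ 12) s4 H4b (mkCon 4 cc4b 0 1)) = true := by decide +kernel
def H4b_ok_80 : (((leaves tH4b (rZ 4) R4 []).drop 240).take 3).all (leafOK (sZ 12) s4 H4b (mkCon 4 cc4b 0 1)) = true := by decide +kernel
def H4b_ok_81 : (((leaves tH4b (rZ 4) R4 []).drop 243).take 3).all (leafOK (sZ 12) s4 H4b (mkCon 4 cc4b 0 1)) = true := by decide +kernel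
def H4b_ok_82 : (((leaves tH4b (rZ 4) R4 []).drop 246).take 3).all (leafOK (sZ 12) s4 H4b (mkCon 4 cc4b 0 1)) = true := by decide +kernel
def H4b_ok_83 : (((leaves tH4b (rZ 4) R4 []).drop 249).take 3).all (leafOK (sZ 12) s4 H4b (mkCon 4 cc4b 0 1)) = true := by decide +kernel
def H4b_ok_84 : (((leaves tH4b (rZ 4) R4 []).drop 252).take 3).all (leafOK (sZ 12) s4 H4b (mkCon 4 cc4b 0 1)) = true := by decide +kernel
def H4b_ok_85 : (((leaves tH4b (rZ 4) R4 []).drop 255).take 3).all (leafOK (sZ 12) s4 H4b (mkCon 4 cc4b 0 1)) = true := by decide +kernel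
def H4b_ok_86 : (((leaves tH4b (rZ 4) R4 []).drop 258).take 3).all (leafOK (sZ 12) s4 H4b (mkCon 4 cc4b 0 1)) = true := by decide +kernel
def H4b_ok_87 : (((leaves tH4b (rZ 4) R4 []).drop 261).take 3).all (leafOK (sZ 12) s4 H4b (mkCon 4 cc4b 0 1)) = true := by decide +kernel
def H4b_ok_88 : (((leaves tH4b (rZ 4) R4 []).drop 264).take 3).all (leafOK (sZ 12) s4 H4b (mkCon 4 cc4b 0 1)) = true := by decide +kernel
def H4b_ok_89 : (((leaves tH4b (rZ 4) R4 []).drop 267).take 3).all (leafOK (sZ 12) s4 H4b (mkCon 4 cc4b 0 1)) = true := by decide +kernel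
def H4b_ok_90 : (((leaves tH4b (rZ 4) R4 []).drop 270).take 3).all (leafOK (sZ 12) s4 H4b (mkCon 4 cc4b 0 1)) = true := by decide +kernel
def H4b_ok_91 : (((leaves tH4b (rZ 4) R4 []).drop 273).take 3).all (leafOK (sZ 12) s4 H4b (mkCon 4 cc4b 0 1)) = true := by decide +kernel
def H4b_ok_92 : (((leaves tH4b (rZ 4) R4 []).drop 276).take 3).all (leafOK (sZ 12) s4 H4b (mkCon 4 cc4b 0 1)) = true := by decide +kernel
def H4b_ok_93 : (((leaves tH4b (rZ 4) R4 []).drop 279).take 3).all (leafOK (sZ 12) s4 H4b (mkCon 4 cc4b 0 1)) = true := by decide +kernel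
def H4b_ok_94 : (((leaves tH4b (rZ 4) R4 []).drop 282).take 3).all (leafOK (sZ 12) s4 H4b (mkCon 4 cc4b 0 1)) = true := by decide +kernel
def H4b_ok_95 : (((leaves tH4b (rZ 4) R4 []).drop 285).take 3).all (leafOK (sZ 12) s4 H4b (mkCon 4 cc4b 0 1)) = true := by decide +kernel
def H4b_ok_96 : (((leaves tH4b (rZ 4) R4 []).drop 288).take 3).all (leafOK (sZ 12) s4 H4b (mkCon 4 cc4b 0 1)) = true := by decide +kernel
def H4b_ok_97 : (((leaves tH4b (rZ 4) R4 []).drop 291).take 3).all (leafOK (sZ 12) s4 H4b (mkCon 4 cc4b 0 1)) = true := by decide +kernel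
def H4b_ok_98 : (((leaves tH4b (rZ 4) R4 []).drop 294).take 3).all (leafOK (sZ 12) s4 H4b (mkCon 4 cc4b 0 1)) = true := by decide +kernel
def H4b_ok_99 : (((leaves tH4b (rZ 4) R4 []).drop 297).take 3).all (leafOK (sZ 12) s4 H4b (mkCon 4 cc4b 0 1)) = true := by decide +kernel
def H4b_ok_100 : ((leaves tH4b (rZ 4) R4 []).drop 300).all (leafOK (sZ 12) s4 H4b (mkCon 4 cc4b 0 1)) = true := by decide +kernel

end Vale.Agent.P154
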