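import Vale.Agent.P154.K4a
import Vale.Agent.P154.K4b
import Vale.Agent.P154.K4c
import Vale.Agent.P154.K4d
import Vale.Agent.P154.K4e
import Vale.Agent.P154.K4f

set_option linter.defProp false

namespace Vale.Agent.P154

theorem G4a_ok : ((leaves tG4a R4 R4 []).drop 0).all (leafOK s4 s4 G4a []) = true :=
  chunk _ _ 0 1 G4a_ok_0
    (chunk _ _ 1 1 G4a_ok_1
    (chunk _ _ 2 1 G4a_ok_2
    (G4a_ok_3)))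
theorem H4a_ok : ((leaves tH4a (rZ 4) R4 []).drop 0).all (leafOK (sZ 12) s4 H4a (mkCon 4 cc4a 0 1)) = true :=
  chunk _ _ 0 3 H4a_ok_0
    (chunk _ _ 3 3 H4a_ok_1
    (chunk _ _ 6 3 H4a_ok_2
    (chunk _ _ 9 3 H4a_ok_3
    (chunk _ _ 12 3 H4a_ok_4
    (chunk _ _ 15 3 H4a_ok_5
    (chunk _ _ 18 3 H4a_ok_6
    (chunk _ _ 21 3 H4a_ok_7
    (chunk _ _ 24 3 H4a_ok_8
    (chunk _ _ 27 3 H4a_ok_9
    (chunk _ _ 30 3 H4a_ok_10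
    (chunk _ _ 33 3 H4a_ok_11
    (chunk _ _ 36 3 H4a_ok_12
    (chunk _ _ 39 3 H4a_ok_13
    (chunk _ _ 42 3 H4a_ok_14
    (chunk _ _ 45 3 H4a_ok_15
    (chunk _ _ 48 3 H4a_ok_16
    (chunk _ _ 51 3 H4a_ok_17
    (chunk _ _ 54 3 H4a_ok_18
    (chunk _ _ 57 3 H4a_ok_19
    (H4a_ok_20))))))))))))))))))))
theorem G4b_ok : ((leaves tG4b R4 R4 []).drop 0).all (leafOK s4 s4 G4b []) = true :=
  chunk _ _ 0 1 G4b_ok_0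
    (chunk _ _ 1 1 G4b_ok_1
    (chunk _ _ 2 1 G4b_ok_2
    (chunk _ _ 3 1 G4b_ok_3
    (chunk _ _ 4 1 G4b_ok_4
    (chunk _ _ 5 1 G4b_ok_5
    (chunk _ _ 6 1 G4b_ok_6
    (chunk _ _ 7 1 G4b_ok_7
    (chunk _ _ 8 1 G4b_ok_8
    (chunk _ _ 9 1 G4b_ok_9
    (chunk _ _ 10 1 G4b_ok_10
    (chunk _ _ 11 1 G4b_ok_11
    (chunk _ _ 12 1 G4b_ok_12
    (chunk _ _ 13 1 G4b_ok_13
    (chunk _ _ 14 1 G4b_ok_14
    (chunk _ _ 15 1 G4b_ok_15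
    (chunk _ _ 16 1 G4b_ok_16
    (chunk _ _ 17 1 G4b_ok_17
    (chunk _ _ 18 1 G4b_ok_18
    (chunk _ _ 19 1 G4b_ok_19
    (chunk _ _ 20 1 G4b_ok_20
    (chunk _ _ 21 1 G4b_ok_21
    (chunk _ _ 22 1 G4b_ok_22
    (chunk _ _ 23 1 G4b_ok_23
    (chunk _ _ 24 1 G4b_ok_24
    (chunk _ _ 25 1 G4b_ok_25
    (chunk _ _ 26 1 G4b_ok_26
    (chunk _ _ 27 1 G4b_ok_27
    (chunk _ _ 28 1 G4b_ok_28
    (chunk _ _ 29 1 G4b_ok_29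
    (chunk _ _ 30 1 G4b_ok_30
    (chunk _ _ 31 1 G4b_ok_31
    (chunk _ _ 32 1 G4b_ok_32
    (chunk _ _ 33 1 G4b_ok_33
    (chunk _ _ 34 1 G4b_ok_34
    (chunk _ _ 35 1 G4b_ok_35
    (chunk _ _ 36 1 G4b_ok_36
    (chunk _ _ 37 1 G4b_ok_37
    (chunk _ _ 38 1 G4b_ok_38
    (chunk _ _ 39 1 G4b_ok_39
    (chunk _ _ 40 1 G4b_ok_40
    (chunk _ _ 41 1 G4b_ok_41
    (chunk _ _ 42 1 G4b_ok_42
    (chunk _ _ 43 1 G4b_ok_43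
    (chunk _ _ 44 1 G4b_ok_44
    (chunk _ _ 45 1 G4b_ok_45
    (chunk _ _ 46 1 G4b_ok_46
    (chunk _ _ 47 1 G4b_ok_47
    (chunk _ _ 48 1 G4b_ok_48
    (chunk _ _ 49 1 G4b_ok_49
    (chunk _ _ 50 1 G4b_ok_50
    (chunk _ _ 51 1 G4b_ok_51
    (chunk _ _ 52 1 G4b_ok_52
    (chunk _ _ 53 1 G4b_ok_53
    (chunk _ _ 54 1 G4b_ok_54
    (chunk _ _ 55 1 G4b_ok_55
    (chunk _ _ 56 1 G4b_ok_56
    (chunk _ _ 57 1 G4b_ok_57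
    (chunk _ _ 58 1 G4b_ok_58
    (chunk _ _ 59 1 G4b_ok_59
    (chunk _ _ 60 1 G4b_ok_60
    (chunk _ _ 61 1 G4b_ok_61
    (chunk _ _ 62 1 G4b_ok_62
    (chunk _ _ 63 1 G4b_ok_63
    (chunk _ _ 64 1 G4b_ok_64
    (chunk _ _ 65 1 G4b_ok_65
    (chunk _ _ 66 1 G4b_ok_66
    (chunk _ _ 67 1 G4b_ok_67
    (chunk _ _ 68 1 G4b_ok_68
    (chunk _ _ 69 1 G4b_ok_69
    (chunk _ _ 70 1 G4b_ok_70
    (chunk _ _ 71 1 G4b_ok_71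
    (chunk _ _ 72 1 G4b_ok_72
    (chunk _ _ 73 1 G4b_ok_73
    (chunk _ _ 74 1 G4b_ok_74
    (chunk _ _ 75 1 G4b_ok_75
    (chunk _ _ 76 1 G4b_ok_76
    (chunk _ _ 77 1 G4b_ok_77
    (chunk _ _ 78 1 G4b_ok_78
    (chunk _ _ 79 1 G4b_ok_79
    (chunk _ _ 80 1 G4b_ok_80
    (chunk _ _ 81 1 G4b_ok_81
    (chunk _ _ 82 1 G4b_ok_82
    (chunk _ _ 83 1 G4b_ok_83
    (chunk _ _ 84 1 G4b_ok_84
    (chunk _ _ 85 1 G4b_ok_85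
    (chunk _ _ 86 1 G4b_ok_86
    (chunk _ _ 87 1 G4b_ok_87
    (chunk _ _ 88 1 G4b_ok_88
    (chunk _ _ 89 1 G4b_ok_89
    (chunk _ _ 90 1 G4b_ok_90
    (chunk _ _ 91 1 G4b_ok_91
    (chunk _ _ 92 1 G4b_ok_92
    (chunk _ _ 93 1 G4b_ok_93
    (chunk _ _ 94 1 G4b_ok_94
    (chunk _ _ 95 1 G4b_ok_95
    (chunk _ _ 96 1 G4b_ok_96
    (chunk _ _ 97 1 G4b_ok_97
    (chunk _ _ 98 1 G4b_ok_98
    (chunk _ _ 99 1 G4b_ok_99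
    (chunk _ _ 100 1 G4b_ok_100
    (chunk _ _ 101 1 G4b_ok_101
    (chunk _ _ 102 1 G4b_ok_102
    (chunk _ _ 103 1 G4b_ok_103
    (chunk _ _ 104 1 G4b_ok_104
    (chunk _ _ 105 1 G4b_ok_105
    (chunk _ _ 106 1 G4b_ok_106
    (chunk _ _ 107 1 G4b_ok_107
    (G4b_ok_108))))))))))))))))))))))))))))))))))))))))))))))))))))))))))))))))))))))))))))))))))))))))))))))))))))))))))))
theorem H4b_ok : ((leaves tH4b (rZ 4) R4 []).drop 0).all (leafOK (sZ 12) s4 H4b (mkCon 4 cc4b 0 1)) = true :=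
  chunk _ _ 0 3 H4b_ok_0
    (chunk _ _ 3 3 H4b_ok_1
    (chunk _ _ 6 3 H4b_ok_2
    (chunk _ _ 9 3 H4b_ok_3
    (chunk _ _ 12 3 H4b_ok_4
    (chunk _ _ 15 3 H4b_ok_5
    (chunk _ _ 18 3 H4b_ok_6
    (chunk _ _ 21 3 H4b_ok_7
    (chunk _ _ 24 3 H4b_ok_8
    (chunk _ _ 27 3 H4b_ok_9
    (chunk _ _ 30 3 H4b_ok_10
    (chunk _ _ 33 3 H4b_ok_11
    (chunk _ _ 36 3 H4b_ok_12
    (chunk _ _ 39 3 H4b_ok_13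
    (chunk _ _ 42 3 H4b_ok_14
    (chunk _ _ 45 3 H4b_ok_15
    (chunk _ _ 48 3 H4b_ok_16
    (chunk _ _ 51 3 H4b_ok_17
    (chunk _ _ 54 3 H4b_ok_18
    (chunk _ _ 57 3 H4b_ok_19
    (chunk _ _ 60 3 H4b_ok_20
    (chunk _ _ 63 3 H4b_ok_21
    (chunk _ _ 66 3 H4b_ok_22
    (chunk _ _ 69 3 H4b_ok_23
    (chunk _ _ 72 3 H4b_ok_24
    (chunk _ _ 75 3 H4b_ok_25
    (chunk _ _ 78 3 H4b_ok_26
    (chunk _ _ 81 3 H4b_ok_27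
    (chunk _ _ 84 3 H4b_ok_28
    (chunk _ _ 87 3 H4b_ok_29
    (chunk _ _ 90 3 H4b_ok_30
    (chunk _ _ 93 3 H4b_ok_31
    (chunk _ _ 96 3 H4b_ok_32
    (chunk _ _ 99 3 H4b_ok_33
    (chunk _ _ 102 3 H4b_ok_34
    (chunk _ _ 105 3 H4b_ok_35
    (chunk _ _ 108 3 H4b_ok_36
    (chunk _ _ 111 3 H4b_ok_37
    (chunk _ _ 114 3 H4b_ok_38
    (chunk _ _ 117 3 H4b_ok_39
    (chunk _ _ 120 3 H4b_ok_40
    (chunk _ _ 123 3 H4b_ok_41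
    (chunk _ _ 126 3 H4b_ok_42
    (chunk _ _ 129 3 H4b_ok_43
    (chunk _ _ 132 3 H4b_ok_44
    (chunk _ _ 135 3 H4b_ok_45
    (chunk _ _ 138 3 H4b_ok_46
    (chunk _ _ 141 3 H4b_ok_47
    (chunk _ _ 144 3 H4b_ok_48
    (chunk _ _ 147 3 H4b_ok_49
    (chunk _ _ 150 3 H4b_ok_50
    (chunk _ _ 153 3 H4b_ok_51
    (chunk _ _ 156 3 H4b_ok_52
    (chunk _ _ 159 3 H4b_ok_53
    (chunk _ _ 162 3 H4b_ok_54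
    (chunk _ _ 165 3 H4b_ok_55
    (chunk _ _ 168 3 H4b_ok_56
    (chunk _ _ 171 3 H4b_ok_57
    (chunk _ _ 174 3 H4b_ok_58
    (chunk _ _ 177 3 H4b_ok_59
    (chunk _ _ 180 3 H4b_ok_60
    (chunk _ _ 183 3 H4b_ok_61
    (chunk _ _ 186 3 H4b_ok_62
    (chunk _ _ 189 3 H4b_ok_63
    (chunk _ _ 192 3 H4b_ok_64
    (chunk _ _ 195 3 H4b_ok_65
    (chunk _ _ 198 3 H4b_ok_66
    (chunk _ _ 201 3 H4b_ok_67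
    (chunk _ _ 204 3 H4b_ok_68
    (chunk _ _ 207 3 H4b_ok_69
    (chunk _ _ 210 3 H4b_ok_70
    (chunk _ _ 213 3 H4b_ok_71
    (chunk _ _ 216 3 H4b_ok_72
    (chunk _ _ 219 3 H4b_ok_73
    (chunk _ _ 222 3 H4b_ok_74
    (chunk _ _ 225 3 H4b_ok_75
    (chunk _ _ 228 3 H4b_ok_76
    (chunk _ _ 231 3 H4b_ok_77
    (chunk _ _ 234 3 H4b_ok_78
    (chunk _ _ 237 3 H4b_ok_79
    (chunk _ _ 240 3 H4b_ok_80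
    (chunk _ _ 243 3 H4b_ok_81
    (chunk _ _ 246 3 H4b_ok_82
    (chunk _ _ 249 3 H4b_ok_83
    (chunk _ _ 252 3 H4b_ok_84
    (chunk _ _ 255 3 H4b_ok_85
    (chunk _ _ 258 3 H4b_ok_86
    (chunk _ _ 261 3 H4b_ok_87
    (chunk _ _ 264 3 H4b_ok_88
    (chunk _ _ 267 3 H4b_ok_89
    (chunk _ _ 270 3 H4b_ok_90
    (chunk _ _ 273 3 H4b_ok_91
    (chunk _ _ 276 3 H4b_ok_92
    (chunk _ _ 279 3 H4b_ok_93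
    (chunk _ _ 282 3 H4b_ok_94
    (chunk _ _ 285 3 H4b_ok_95
    (chunk _ _ 288 3 H4b_ok_96
    (chunk _ _ 291 3 H4b_ok_97
    (chunk _ _ 294 3 H4b_ok_98
    (chunk _ _ 297 3 H4b_ok_99
    (H4b_ok_100))))))))))))))))))))))))))))))))))))))))))))))))))))))))))))))))))))))))))))))))))))))))))))))))))))

end Vale.Agent.P154
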