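import Vale.Agent.P154.D4

set_option linter.defProp false

namespace Vale.Agent.P154

def tab4_ok0_0 : (((tab4).drop 0).take 6).all (fun τ => idOK pm4 s4 I4 64 τ && (true)) = true := by decide +kernel
def tab4_ok0_1 : (((tab4).drop 6).take 6).all (fun τ => idOK pm4 s4 I4 64 τ && (true)) = true := by decide +kernel
def tab4_ok0_2 : (((tab4).drop 12).take 6).all (fun τ => idOK pm4 s4 I4 64 τ && (true)) = true := by decide +kernel
def tab4_ok0_3 : (((tab4).drop 18).take 6).all (fun τ => idOK pm4 s4 I4 64 τ && (true)) = true := by decide +kernel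
def tab4_ok0_4 : (((tab4).drop 24).take 6).all (fun τ => idOK pm4 s4 I4 64 τ && (true)) = true := by decide +kernel
def tab4_ok0_5 : (((tab4).drop 30).take 6).all (fun τ => idOK pm4 s4 I4 64 τ && (true)) = true := by decide +kernel
def tab4_ok0_6 : (((tab4).drop 36).take 6).all (fun τ => idOK pm4 s4 I4 64 τ && (true)) = true := by decide +kernel
def tab4_ok0_7 : (((tab4).drop 42).take 6).all (fun τ => idOK pm4 s4 I4 64 τ && (true)) = true := by decide +kernel
def tab4_ok0_8 : (((tab4).drop 48).take 6).all (fun τ => idOK pm4 s4 I4 64 τ && (true)) = true := by decide +kernel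
def tab4_ok0_9 : (((tab4).drop 54).take 6).all (fun τ => idOK pm4 s4 I4 64 τ && (true)) = true := by decide +kernel
def tab4_ok0_10 : (((tab4).drop 60).take 6).all (fun τ => idOK pm4 s4 I4 64 τ && (true)) = true := by decide +kernel
def tab4_ok0_11 : (((tab4).drop 66).take 6).all (fun τ => idOK pm4 s4 I4 64 τ && (true)) = true := by decide +kernel
def tab4_ok0_12 : (((tab4).drop 72).take 6).all (fun τ => idOK pm4 s4 I4 64 τ && (true)) = true := by decide +kernel
def tab4_ok0_13 : (((tab4).drop 78).take 6).all (fun τ => idOK pm4 s4 I4 64 τ && (true)) = true := by decide +kernel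
def tab4_ok0_14 : (((tab4).drop 84).take 6).all (fun τ => idOK pm4 s4 I4 64 τ && (true)) = true := by decide +kernel
def tab4_ok0_15 : ((tab4).drop 90).all (fun τ => idOK pm4 s4 I4 64 τ && (true)) = true := by decide +kernel
theorem tab4_ok0 : ((tab4).drop 0).all (fun τ => idOK pm4 s4 I4 64 τ && (true)) = true :=
  chunk _ _ 0 6 tab4_ok0_0
    (chunk _ _ 6 6 tab4_ok0_1
    (chunk _ _ 12 6 tab4_ok0_2
    (chunk _ _ 18 6 tab4_ok0_3
    (chunk _ _ 24 6 tab4_ok0_4
    (chunk _ _ 30 6 tab4_ok0_5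
    (chunk _ _ 36 6 tab4_ok0_6
    (chunk _ _ 42 6 tab4_ok0_7
    (chunk _ _ 48 6 tab4_ok0_8
    (chunk _ _ 54 6 tab4_ok0_9
    (chunk _ _ 60 6 tab4_ok0_10
    (chunk _ _ 66 6 tab4_ok0_11
    (chunk _ _ 72 6 tab4_ok0_12
    (chunk _ _ 78 6 tab4_ok0_13
    (chunk _ _ 84 6 tab4_ok0_14
    (tab4_ok0_15)))))))))))))))
theorem tab4_ok : tab4.all (fun τ => idOK pm4 s4 I4 64 τ && (true)) = true := tab4_ok0
def G4a_eq : mkG1 (cs4a.zip tab4) mu4a psv4 Av4 A2v4 (ei 0) kk4a = G4a := by decide +kernel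
def G4b_eq : mkG2 (cs4b.zip tab4) mu4b psv4 = G4b := by decide +kernel
def H4a_eq : mkH 4 10 12 Sp4a (Av4.map fun b => -1 * b) (cs4a.zip tab4) = H4a := by decide +kernel
def H4b_eq : mkH 4 10 12 Sp4b psv4 (cs4b.zip tab4) = H4b := by decide +kernel
def S4a_ok : ((leaves tS4a rT R4 []).drop 0).all (leafOK sT s4 [mu4a] []) = true := by decide +kernel
def S4b_ok : ((leaves tS4b rT R4 []).drop 0).all (leafOK sT s4 [vadd (· + ·) mu4b (psv4.map fun b => -kk4b * b)] []) = true := by decide +kernel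
def C4_ok : ((leaves tC4 rT R4 []).drop 0).all (leafOK sT s4 [chv4] []) = true := by decide +kernel
def G4a_ok_0 : (((leaves tG4a R4 R4 []).drop 0).take 1).all (leafOK s4 s4 G4a []) = true := by decide +kernel
def G4a_ok_1 : (((leaves tG4a R4 R4 []).drop 1).take 1).all (leafOK s4 s4 G4a []) = true := by decide +kernel
def G4a_ok_2 : (((leaves tG4a R4 R4 []).drop 2).take 1).all (leafOK s4 s4 G4a []) = true := by decide +kernel
def G4a_ok_3 : ((leaves tG4a R4 R4 []).drop 3).all (leafOK s4 s4 G4a []) = true := by decide +kernel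
def H4a_ok_0 : (((leaves tH4a (rZ 4) R4 []).drop 0).take 3).all (leafOK (sZ 12) s4 H4a (mkCon 4 cc4a 0 1)) = true := by decide +kernel
def H4a_ok_1 : (((leaves tH4a (rZ 4) R4 []).drop 3).take 3).all (leafOK (sZ 12) s4 H4a (mkCon 4 cc4a 0 1)) = true := by decide +kernel
def H4a_ok_2 : (((leaves tH4a (rZ 4) R4 []).drop 6).take 3).all (leafOK (sZ 12) s4 H4a (mkCon 4 cc4a 0 1)) = true := by decide +kernel
def H4a_ok_3 : (((leaves tH4a (rZ 4) R4 []).drop 9).take 3).all (leafOK (sZ 12) s4 H4a (mkCon 4 cc4a 0 1)) = true := by decide +kernel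
def H4a_ok_4 : (((leaves tH4a (rZ 4) R4 []).drop 12).take 3).all (leafOK (sZ 12) s4 H4a (mkCon 4 cc4a 0 1)) = true := by decide +kernel
def H4a_ok_5 : (((leaves tH4a (rZ 4) R4 []).drop 15).take 3).all (leafOK (sZ 12) s4 H4a (mkCon 4 cc4a 0 1)) = true := by decide +kernel
def H4a_ok_6 : (((leaves tH4a (rZ 4) R4 []).drop 18).take 3).all (leafOK (sZ 12) s4 H4a (mkCon 4 cc4a 0 1)) = true := by decide +kernel
def H4a_ok_7 : (((leaves tH4a (rZ 4) R4 []).drop 21).take 3).all (leafOK (sZ 12) s4 H4a (mkCon 4 cc4a 0 1)) = true := by decide +kernel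
def H4a_ok_8 : (((leaves tH4a (rZ 4) R4 []).drop 24).take 3).all (leafOK (sZ 12) s4 H4a (mkCon 4 cc4a 0 1)) = true := by decide +kernel
def H4a_ok_9 : (((leaves tH4a (rZ 4) R4 []).drop 27).take 3).all (leafOK (sZ 12) s4 H4a (mkCon 4 cc4a 0 1)) = true := by decide +kernel
def H4a_ok_10 : (((leaves tH4a (rZ 4) R4 []).drop 30).take 3).all (leafOK (sZ 12) s4 H4a (mkCon 4 cc4a 0 1)) = true := by decide +kernel
def H4a_ok_11 : (((leaves tH4a (rZ 4) R4 []).drop 33).take 3).all (leafOK (sZ 12) s4 H4a (mkCon 4 cc4a 0 1)) = true := by decide +kernel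
def H4a_ok_12 : (((leaves tH4a (rZ 4) R4 []).drop 36).take 3).all (leafOK (sZ 12) s4 H4a (mkCon 4 cc4a 0 1)) = true := by decide +kernel
def H4a_ok_13 : (((leaves tH4a (rZ 4) R4 []).drop 39).take 3).all (leafOK (sZ 12) s4 H4a (mkCon 4 cc4a 0 1)) = true := by decide +kernel
def H4a_ok_14 : (((leaves tH4a (rZ 4) R4 []).drop 42).take 3).all (leafOK (sZ 12) s4 H4a (mkCon 4 cc4a 0 1)) = true := by decide +kernel
def H4a_ok_15 : (((leaves tH4a (rZ 4) R4 []).drop 45).take 3).all (leafOK (sZ 12) s4 H4a (mkCon 4 cc4a 0 1)) = true := by decide +kernel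
def H4a_ok_16 : (((leaves tH4a (rZ 4) R4 []).drop 48).take 3).all (leafOK (sZ 12) s4 H4a (mkCon 4 cc4a 0 1)) = true := by decide +kernel
def H4a_ok_17 : (((leaves tH4a (rZ 4) R4 []).drop 51).take 3).all (leafOK (sZ 12) s4 H4a (mkCon 4 cc4a 0 1)) = true := by decide +kernel
def H4a_ok_18 : (((leaves tH4a (rZ 4) R4 []).drop 54).take 3).all (leafOK (sZ 12) s4 H4a (mkCon 4 cc4a 0 1)) = true := by decide +kernel
def H4a_ok_19 : (((leaves tH4a (rZ 4) R4 []).drop 57).take 3).all (leafOK (sZ 12) s4 H4a (mkCon 4 cc4a 0 1)) = true := by decide +kernel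
def H4a_ok_20 : ((leaves tH4a (rZ 4) R4 []).drop 60).all (leafOK (sZ 12) s4 H4a (mkCon 4 cc4a 0 1)) = true := by decide +kernel

end Vale.Agent.P154
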